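import Crest.Agent.R180.NDA1
import Crest.Agent.R180.NDA2
import Crest.Agent.R180.NDA3
import Crest.Agent.R180.NDA4
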